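import Vale.Agent.P124.Bdl.B1

open Metric TopologicalSpace Vale.Agent.P124

universe u

theorem Vale.Agent.Results.P124.Homog.result :
    ((∀ (X Y : Type u) [NormedAddCommGroup X] [NormedSpace ℝ X] [CompleteSpace X]
        [SeparableSpace X] [NormedAddCommGroup Y] [NormedSpace ℝ Y] [CompleteSpace Y]
        [SeparableSpace Y], LipEquiv X Y → Nonempty (X ≃L[ℝ] Y)) ↔
      (∀ (X Y : Type u) [NormedAddCommGroup X] [NormedSpace ℝ X] [CompleteSpace X]
        [SeparableSpace X] [NormedAddCommGroup Y] [NormedSpace ℝ Y] [CompleteSpace Y]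
        [SeparableSpace Y], RadialEquiv X Y → Nonempty (X ≃L[ℝ] Y))) ∧
    ((∀ (X Y : Type u) [NormedAddCommGroup X] [NormedSpace ℝ X] [CompleteSpace X]
        [SeparableSpace X] [NormedAddCommGroup Y] [NormedSpace ℝ Y] [CompleteSpace Y]
        [SeparableSpace Y], LipEquiv X Y → Nonempty (X ≃L[ℝ] Y)) ↔
      (∀ (X Y : Type u) [NormedAddCommGroup X] [NormedSpace ℝ X] [CompleteSpace X]
        [SeparableSpace X] [NormedAddCommGroup Y] [NormedSpace ℝ Y] [CompleteSpace Y]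
        [SeparableSpace Y], LipEquiv (sphere (0 : X) 1) (sphere (0 : Y) 1) →
          Nonempty (X ≃L[ℝ] Y))) ∧
    (∀ (X Y : Type u) [NormedAddCommGroup X] [NormedSpace ℝ X]
        [NormedAddCommGroup Y] [NormedSpace ℝ Y],
      (LipEquiv X Y ↔ LipEquiv (sphere (0 : WithLp 2 (X × ℝ)) 1)
        (sphere (0 : WithLp 2 (Y × ℝ)) 1))) := by
  have h12 : (∀ (X Y : Type u) [NormedAddCommGroup X] [NormedSpace ℝ X] [CompleteSpace X]
        [SeparableSpace X] [NormedAddCommGroup Y] [NormedSpace ℝ Y] [CompleteSpace Y]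
        [SeparableSpace Y], RadialEquiv X Y → Nonempty (X ≃L[ℝ] Y)) →
      (∀ (X Y : Type u) [NormedAddCommGroup X] [NormedSpace ℝ X] [CompleteSpace X]
        [SeparableSpace X] [NormedAddCommGroup Y] [NormedSpace ℝ Y] [CompleteSpace Y]
        [SeparableSpace Y], LipEquiv X Y → Nonempty (X ≃L[ℝ] Y)) := by
    intro H X Y _ _ _ _ _ _ _ _ h
    obtain ⟨f, hf⟩ := h.exists_isLipIso
    obtain ⟨T⟩ := H (SumR X) (SumR Y) (exists_homog hf)
    exact cancel_sumR T
  have h21 : ∀ (X Y : Type u) [NormedAddCommGroup X] [NormedSpace ℝ X]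
      [NormedAddCommGroup Y] [NormedSpace ℝ Y], RadialEquiv X Y → LipEquiv X Y := by
    intro X Y _ _ _ _ h
    obtain ⟨f, hf, -, -⟩ := h
    exact hf.lipEquiv
  refine ⟨⟨fun H X Y _ _ _ _ _ _ _ _ h => H X Y (h21 X Y h), h12⟩,
    ⟨fun H X Y _ _ _ _ _ _ _ _ h => H X Y (h21 X Y (radialEquiv_of_sphere h)),
      fun H => h12 (fun X Y _ _ _ _ _ _ _ _ h => H X Y h.sphere)⟩, ?_⟩
  intro X Y _ _ _ _
  exact lipEquiv_iff_sphere_sumR
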